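import Mathlib

namespace Vale.Agent.Lib.P201

open Finset

section Closed

variable {G : Type*} [Group G]

/-- A nonempty finite set closed under left multiplication by `h` forces `h` to have finite
order, hence `h = 1` in a torsion-free group. -/
theorem eq_one_of_mul_left_closed (hG : ∀ g : G, ∀ n : ℕ, 0 < n → g ^ n = 1 → g = 1)
    (S : Finset G) (hS : S.Nonempty) (h : G) (hcl : ∀ q ∈ S, h * q ∈ S) : h = 1 := by
  obtain ⟨q, hq⟩ := hS
  have hmem : ∀ n : ℕ, h ^ n * q ∈ S := by
    intro n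
    induction n with
    | zero => simpa using hq
    | succ n ih =>
      have := hcl _ ih
      rwa [← mul_assoc, ← pow_succ'] at this
  have hinj : ¬ Function.Injective (fun n : ℕ => (⟨h ^ n * q, hmem n⟩ : S)) :=
    not_injective_infinite_finite _
  rw [Function.Injective] at hinj
  push Not at hinj
  obtain ⟨n, k, heq, hne⟩ := hinj
  have heq' : h ^ n * q = h ^ k * q := by simpa using congrArg Subtype.val heq
  have heq'' : h ^ n = h ^ k := mul_right_cancel heq'
  rcases lt_or_gt_of_ne hne with hlt | hlt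
  · apply hG h (k - n) (by omega)
    have hk : h ^ k = h ^ (k - n) * h ^ n := by
      rw [← pow_add]; congr 1; omega
    rw [hk] at heq''
    simpa using heq''
  · apply hG h (n - k) (by omega)
    have hk : h ^ n = h ^ (n - k) * h ^ k := by
      rw [← pow_add]; congr 1; omega
    rw [hk] at heq''
    simpa using heq''

/-- Right-handed version of `eq_one_of_mul_left_closed`. -/
theorem eq_one_of_mul_right_closed (hG : ∀ g : G, ∀ n : ℕ, 0 < n → g ^ n = 1 → g = 1)
    (S : Finset G) (hS : S.Nonempty) (h : G) (hcl : ∀ q ∈ S, q * h ∈ S) : h = 1 := by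
  obtain ⟨q, hq⟩ := hS
  have hmem : ∀ n : ℕ, q * h ^ n ∈ S := by
    intro n
    induction n with
    | zero => simpa using hq
    | succ n ih =>
      have := hcl _ ih
      rwa [mul_assoc, ← pow_succ] at this
  have hinj : ¬ Function.Injective (fun n : ℕ => (⟨q * h ^ n, hmem n⟩ : S)) :=
    not_injective_infinite_finite _
  rw [Function.Injective] at hinj
  push Not at hinj
  obtain ⟨n, k, heq, hne⟩ := hinj
  have heq' : q * h ^ n = q * h ^ k := by simpa using congrArg Subtype.val heq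
  have heq'' : h ^ n = h ^ k := mul_left_cancel heq'
  rcases lt_or_gt_of_ne hne with hlt | hlt
  · apply hG h (k - n) (by omega)
    have hk : h ^ k = h ^ (k - n) * h ^ n := by
      rw [← pow_add]; congr 1; omega
    rw [hk] at heq''
    simpa using heq''
  · apply hG h (n - k) (by omega)
    have hk : h ^ n = h ^ (n - k) * h ^ k := by
      rw [← pow_add]; congr 1; omega
    rw [hk] at heq''
    simpa using heq''

end Closed

section Valuative

variable {K : Type*} [Field K] {Γ₀ : Type*} [LinearOrderedCommGroupWithZero Γ₀]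
variable {A B C : Type*} [DecidableEq A] [DecidableEq B] [DecidableEq C]

/-- Weighted unique-product lemma: if all convolution coefficients vanish, a pair of terms of
maximal weight never has a product that is unique among pairs of maximal weight. -/
theorem exists_ne_of_sum_eq_zero (v : Valuation K Γ₀) (m : A → B → C)
    (wA : A → Γ₀) (wB : B → Γ₀) (wC : C → Γ₀)
    (hw : ∀ p q, wA p * wB q = wC (m p q)) (hwC : ∀ c, wC c ≠ 0)
    (P : Finset A) (Q : Finset B) (a : A → K) (b : B → K)
    (hzero : ∀ c, ∑ p ∈ P, ∑ q ∈ Q, (if m p q = c then a p * b q else 0) = 0)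
    (s : A) (hs : s ∈ P) (has : a s ≠ 0) (hsmax : ∀ p ∈ P, v (a p) * wA p ≤ v (a s) * wA s)
    (t : B) (ht : t ∈ Q) (hbt : b t ≠ 0) (htmax : ∀ q ∈ Q, v (b q) * wB q ≤ v (b t) * wB t) :
    ∃ s' ∈ P, ∃ t' ∈ Q, m s' t' = m s t ∧ (s' ≠ s ∨ t' ≠ t) ∧
      v (a s') * wA s' = v (a s) * wA s ∧ v (b t') * wB t' = v (b t) * wB t := by
  by_contra hcon
  push Not at hcon
  have hz := hzero (m s t)
  rw [← Finset.sum_product' P Q (fun p q => if m p q = m s t then a p * b q else 0)] at hz
  have hst : (s, t) ∈ P ×ˢ Q := Finset.mem_product.mpr ⟨hs, ht⟩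
  rw [← Finset.add_sum_erase _ _ hst] at hz
  simp only [if_true] at hz
  have hwAs : wA s ≠ 0 := left_ne_zero_of_mul (hw s t ▸ hwC (m s t))
  have hwBt : wB t ≠ 0 := right_ne_zero_of_mul (hw s t ▸ hwC (m s t))
  have hvas : v (a s) ≠ 0 := (Valuation.ne_zero_iff v).mpr has
  have hvbt : v (b t) ≠ 0 := (Valuation.ne_zero_iff v).mpr hbt
  have hpos : v (a s * b t) ≠ 0 := (Valuation.ne_zero_iff v).mpr (mul_ne_zero has hbt)
  have hlt : v (∑ x ∈ (P ×ˢ Q).erase (s, t), (if m x.1 x.2 = m s t then a x.1 * b x.2 else 0))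
      < v (a s * b t) := by
    apply Valuation.map_sum_lt v hpos
    rintro ⟨p, q⟩ hx
    rw [Finset.mem_erase, Finset.mem_product] at hx
    obtain ⟨hne, hp, hq⟩ := hx
    by_cases hm : m p q = m s t
    · simp only [hm, if_true]
      have hne' : p ≠ s ∨ q ≠ t := by
        by_contra hc
        push Not at hc
        exact hne (by rw [hc.1, hc.2])
      have key : (v (a p) * wA p) * (v (b q) * wB q) < (v (a s) * wA s) * (v (b t) * wB t) := by
        rcases lt_or_eq_of_le (hsmax p hp) with h1 | h1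
        · have hpos2 : 0 < v (b t) * wB t := zero_lt_iff.mpr (mul_ne_zero hvbt hwBt)
          calc (v (a p) * wA p) * (v (b q) * wB q) ≤ (v (a p) * wA p) * (v (b t) * wB t) :=
                mul_le_mul_right (htmax q hq) _
            _ < (v (a s) * wA s) * (v (b t) * wB t) :=
                MulPosStrictMono.mul_lt_mul_of_pos_right hpos2 h1
        · have h2 : v (b q) * wB q < v (b t) * wB t :=
            lt_of_le_of_ne (htmax q hq) (hcon p hp q hq hm hne' h1)
          rw [h1]
          have hpos1 : 0 < v (a s) * wA s := zero_lt_iff.mpr (mul_ne_zero hvas hwAs)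
          exact (mul_lt_mul_iff_of_pos_left hpos1).mpr h2
      have e1 : (v (a p) * wA p) * (v (b q) * wB q) = v (a p * b q) * wC (m s t) := by
        rw [← hm, ← hw p q, map_mul]; exact mul_mul_mul_comm _ _ _ _
      have e2 : (v (a s) * wA s) * (v (b t) * wB t) = v (a s * b t) * wC (m s t) := by
        rw [← hw s t, map_mul]; exact mul_mul_mul_comm _ _ _ _
      rw [e1, e2] at key
      exact lt_of_mul_lt_mul_right' key
    · simp only [hm, if_false, map_zero]
      exact zero_lt_iff.mpr hpos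
  have : a s * b t = - ∑ x ∈ (P ×ˢ Q).erase (s, t),
      (if m x.1 x.2 = m s t then a x.1 * b x.2 else 0) := eq_neg_of_add_eq_zero_left hz
  rw [this, Valuation.map_neg] at hlt
  exact lt_irrefl _ hlt


end Valuative

section Dominance

variable {K : Type*} [Field K]
variable {A B C : Type*} [DecidableEq A] [DecidableEq C]

/-- Maximum principle: if all convolution coefficients vanish and one coefficient of the first
factor weakly dominates the others, the set where the second factor has maximal absolute value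
is stable under the induced shifts. -/
theorem dominance_core (abv : AbsoluteValue K ℝ) (m : A → B → C)
    (hm : ∀ p, Function.Injective (m p))
    (P : Finset A) (Q : Finset B) (a : A → K) (b : B → K)
    (ha : ∀ p ∈ P, a p ≠ 0)
    (hzero : ∀ c, ∑ p ∈ P, ∑ q ∈ Q, (if m p q = c then a p * b q else 0) = 0)
    (p0 : A) (hp0 : p0 ∈ P) (hdom : ∑ p ∈ P.erase p0, abv (a p) ≤ abv (a p0))
    (M : ℝ) (hM : 0 < M) (hMmax : ∀ q ∈ Q, abv (b q) ≤ M)
    (q : B) (hq : q ∈ Q) (hqM : abv (b q) = M) :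
    (P.erase p0).Nonempty ∧ ∀ p ∈ P.erase p0, ∃ q' ∈ Q, abv (b q') = M ∧ m p q' = m p0 q := by
  set c := m p0 q with hc
  set inner : A → K := fun p => ∑ q' ∈ Q, (if m p q' = c then a p * b q' else 0) with hinner
  have inner_cases : ∀ p, (∃ q' ∈ Q, m p q' = c ∧ inner p = a p * b q') ∨
      ((¬ ∃ q' ∈ Q, m p q' = c) ∧ inner p = 0) := by
    intro p
    by_cases hex : ∃ q' ∈ Q, m p q' = c
    · left
      obtain ⟨q', hq', hq'c⟩ := hex
      refine ⟨q', hq', hq'c, ?_⟩
      rw [hinner]
      simp only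
      rw [Finset.sum_eq_single_of_mem q' hq']
      · rw [if_pos hq'c]
      · intro q'' _ hne
        rw [if_neg]
        intro h
        exact hne (hm p (h.trans hq'c.symm))
    · right
      refine ⟨hex, ?_⟩
      rw [hinner]
      simp only
      apply Finset.sum_eq_zero
      intro q' hq'
      rw [if_neg]
      intro h
      exact hex ⟨q', hq', h⟩
  have inner_le : ∀ p, abv (inner p) ≤ abv (a p) * M := by
    intro p
    rcases inner_cases p with ⟨q', hq', -, he⟩ | ⟨-, he⟩
    · rw [he, abv.map_mul]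
      exact mul_le_mul_of_nonneg_left (hMmax q' hq') (abv.nonneg _)
    · rw [he, abv.map_zero]
      exact mul_nonneg (abv.nonneg _) hM.le
  have inner_eq : ∀ p, a p ≠ 0 → abv (inner p) = abv (a p) * M →
      ∃ q' ∈ Q, abv (b q') = M ∧ m p q' = c := by
    intro p hap heq
    have hpos : 0 < abv (a p) := abv.pos hap
    rcases inner_cases p with ⟨q', hq', hq'c, he⟩ | ⟨-, he⟩
    · refine ⟨q', hq', ?_, hq'c⟩
      rw [he, abv.map_mul] at heq
      exact mul_left_cancel₀ hpos.ne' heq
    · rw [he, abv.map_zero] at heq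
      have : 0 < abv (a p) * M := mul_pos hpos hM
      linarith
  have inner_p0 : inner p0 = a p0 * b q := by
    rcases inner_cases p0 with ⟨q', hq', hq'c, he⟩ | ⟨hne, -⟩
    · have : q' = q := hm p0 hq'c
      rw [he, this]
    · exact absurd ⟨q, hq, rfl⟩ hne
  have hz : inner p0 + ∑ p ∈ P.erase p0, inner p = 0 := by
    rw [Finset.add_sum_erase P inner hp0]
    exact hzero c
  have hap0 : 0 < abv (a p0) := abv.pos (ha p0 hp0)
  have h1 : abv (a p0) * M = abv (∑ p ∈ P.erase p0, inner p) := by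
    have : inner p0 = - ∑ p ∈ P.erase p0, inner p := eq_neg_of_add_eq_zero_left hz
    rw [← abv.map_neg (∑ p ∈ P.erase p0, inner p), ← this, inner_p0, abv.map_mul, hqM]
  have h2 : abv (∑ p ∈ P.erase p0, inner p) ≤ ∑ p ∈ P.erase p0, abv (inner p) :=
    abv.sum_le _ _
  have h3 : ∑ p ∈ P.erase p0, abv (inner p) ≤ ∑ p ∈ P.erase p0, abv (a p) * M :=
    Finset.sum_le_sum fun p _ => inner_le p
  have h4 : ∑ p ∈ P.erase p0, abv (a p) * M ≤ abv (a p0) * M := by
    rw [← Finset.sum_mul]
    exact mul_le_mul_of_nonneg_right hdom hM.le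
  have h5 : ∑ p ∈ P.erase p0, abv (inner p) = ∑ p ∈ P.erase p0, abv (a p) * M := by
    linarith
  have h6 := (Finset.sum_eq_sum_iff_of_le (fun p _ => inner_le p)).mp h5
  refine ⟨?_, fun p hp => ?_⟩
  · by_contra hemp
    rw [Finset.not_nonempty_iff_eq_empty] at hemp
    rw [hemp, Finset.sum_empty, abv.map_zero] at h1
    have : 0 < abv (a p0) * M := mul_pos hap0 hM
    linarith
  · exact inner_eq p (ha p (Finset.mem_of_mem_erase hp)) (h6 p hp)


end Dominance

section Group

variable {G : Type*} [Group G] {K : Type*} [Field K]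

theorem coeff_mul_sum [DecidableEq G] (α β : MonoidAlgebra K G) (c : G) :
    (α * β).coeff c = ∑ p ∈ α.coeff.support, ∑ q ∈ β.coeff.support,
      (if p * q = c then α.coeff p * β.coeff q else 0) := by
  rw [MonoidAlgebra.coeff_mul]
  rfl

theorem coeff_mul_sum' [DecidableEq G] (α β : MonoidAlgebra K G) (c : G) :
    (α * β).coeff c = ∑ q ∈ β.coeff.support, ∑ p ∈ α.coeff.support,
      (if p * q = c then β.coeff q * α.coeff p else 0) := by
  rw [coeff_mul_sum, Finset.sum_comm]
  refine Finset.sum_congr rfl fun q _ => Finset.sum_congr rfl fun p _ => ?_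
  rw [mul_comm]

theorem support_nonempty_of_ne_zero (α : MonoidAlgebra K G) (hα : α ≠ 0) :
    α.coeff.support.Nonempty := by
  rw [Finsupp.support_nonempty_iff]; simpa using hα

section Val

variable {Γ₀ : Type*} [LinearOrderedCommGroupWithZero Γ₀]

theorem psi_ne_zero (ψ : G →* Γ₀) (c : G) : ψ c ≠ 0 := by
  intro h0
  have h1 : ψ c * ψ c⁻¹ = 1 := by rw [← map_mul, mul_inv_cancel, map_one]
  rw [h0, zero_mul] at h1
  exact zero_ne_one h1

open Classical in
theorem two_lt_card_max_left (hG : ∀ g : G, ∀ n : ℕ, 0 < n → g ^ n = 1 → g = 1)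
    (v : Valuation K Γ₀) (ψ : G →* Γ₀) (α β : MonoidAlgebra K G)
    (hα : α ≠ 0) (hβ : β ≠ 0) (h : α * β = 0) :
    2 < (α.coeff.support.filter (fun g => ∀ g' ∈ α.coeff.support,
      v (α.coeff g') * ψ g' ≤ v (α.coeff g) * ψ g)).card := by
  set S := α.coeff.support.filter (fun g => ∀ g' ∈ α.coeff.support,
      v (α.coeff g') * ψ g' ≤ v (α.coeff g) * ψ g) with hSdef
  set T := β.coeff.support.filter (fun g => ∀ g' ∈ β.coeff.support,
      v (β.coeff g') * ψ g' ≤ v (β.coeff g) * ψ g) with hTdef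
  by_contra hcard
  push Not at hcard
  have hαs := support_nonempty_of_ne_zero α hα
  have hβs := support_nonempty_of_ne_zero β hβ
  obtain ⟨s1, hs1, hs1max⟩ := Finset.exists_max_image α.coeff.support
    (fun g => v (α.coeff g) * ψ g) hαs
  obtain ⟨t0, ht0, ht0max⟩ := Finset.exists_max_image β.coeff.support
    (fun g => v (β.coeff g) * ψ g) hβs
  have hzero : ∀ c, ∑ p ∈ α.coeff.support, ∑ q ∈ β.coeff.support,
      (if p * q = c then α.coeff p * β.coeff q else 0) = 0 := by
    intro c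
    rw [← coeff_mul_sum, h]; simp
  have key : ∀ t ∈ T, ∃ s' ∈ S, s' ≠ s1 ∧ s'⁻¹ * s1 * t ∈ T := by
    intro t ht
    rw [hTdef, Finset.mem_filter] at ht
    obtain ⟨s', hs', t', ht', hm, hne, hWs, hWt⟩ :=
      exists_ne_of_sum_eq_zero v (fun p q : G => p * q)
      ψ ψ ψ (fun p q => (map_mul ψ p q).symm) (psi_ne_zero ψ) α.coeff.support β.coeff.support
      α.coeff β.coeff hzero s1 hs1 (Finsupp.mem_support_iff.mp hs1) hs1max
      t ht.1 (Finsupp.mem_support_iff.mp ht.1) ht.2
    have hs'S : s' ∈ S := by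
      rw [hSdef, Finset.mem_filter]
      refine ⟨hs', fun g' hg' => ?_⟩
      rw [hWs]; exact hs1max g' hg'
    have hne1 : s' ≠ s1 := by
      intro heq
      rcases hne with h1 | h1
      · exact h1 heq
      · apply h1
        rw [heq] at hm
        exact mul_left_cancel hm
    refine ⟨s', hs'S, hne1, ?_⟩
    have ht'eq : s'⁻¹ * s1 * t = t' := by
      rw [mul_assoc, ← hm]; simp
    rw [ht'eq, hTdef, Finset.mem_filter]
    refine ⟨ht', fun g' hg' => ?_⟩
    rw [hWt]; exact ht.2 g' hg'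
  have ht0T : t0 ∈ T := by
    rw [hTdef, Finset.mem_filter]; exact ⟨ht0, ht0max⟩
  have hs1S : s1 ∈ S := by
    rw [hSdef, Finset.mem_filter]; exact ⟨hs1, hs1max⟩
  obtain ⟨s2, hs2S, hs2ne, -⟩ := key t0 ht0T
  have hcl : ∀ t ∈ T, s2⁻¹ * s1 * t ∈ T := by
    intro t ht
    obtain ⟨s', hs'S, hs'ne, hmem⟩ := key t ht
    have : s' = s2 := by
      by_contra hne
      have : 2 < S.card := Finset.two_lt_card.mpr ⟨s1, hs1S, s2, hs2S, s', hs'S,
        fun e => hs2ne e.symm, fun e => hs'ne e.symm, fun e => hne e.symm⟩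
      omega
    rwa [this] at hmem
  have hone := eq_one_of_mul_left_closed hG T ⟨t0, ht0T⟩ (s2⁻¹ * s1) hcl
  apply hs2ne
  have : s1 = s2 := by
    have := congrArg (fun x => s2 * x) hone
    simpa using this
  exact this.symm

open Classical in
theorem two_lt_card_max_right (hG : ∀ g : G, ∀ n : ℕ, 0 < n → g ^ n = 1 → g = 1)
    (v : Valuation K Γ₀) (ψ : G →* Γ₀) (α β : MonoidAlgebra K G)
    (hα : α ≠ 0) (hβ : β ≠ 0) (h : α * β = 0) :
    2 < (β.coeff.support.filter (fun g => ∀ g' ∈ β.coeff.support,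
      v (β.coeff g') * ψ g' ≤ v (β.coeff g) * ψ g)).card := by
  set S := β.coeff.support.filter (fun g => ∀ g' ∈ β.coeff.support,
      v (β.coeff g') * ψ g' ≤ v (β.coeff g) * ψ g) with hSdef
  set T := α.coeff.support.filter (fun g => ∀ g' ∈ α.coeff.support,
      v (α.coeff g') * ψ g' ≤ v (α.coeff g) * ψ g) with hTdef
  by_contra hcard
  push Not at hcard
  have hαs := support_nonempty_of_ne_zero α hα
  have hβs := support_nonempty_of_ne_zero β hβ
  obtain ⟨s1, hs1, hs1max⟩ := Finset.exists_max_image β.coeff.support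
    (fun g => v (β.coeff g) * ψ g) hβs
  obtain ⟨t0, ht0, ht0max⟩ := Finset.exists_max_image α.coeff.support
    (fun g => v (α.coeff g) * ψ g) hαs
  have hzero : ∀ c, ∑ q ∈ β.coeff.support, ∑ p ∈ α.coeff.support,
      (if p * q = c then β.coeff q * α.coeff p else 0) = 0 := by
    intro c
    rw [← coeff_mul_sum', h]; simp
  have key : ∀ t ∈ T, ∃ s' ∈ S, s' ≠ s1 ∧ t * s1 * s'⁻¹ ∈ T := by
    intro t ht
    rw [hTdef, Finset.mem_filter] at ht
    obtain ⟨s', hs', t', ht', hm, hne, hWs, hWt⟩ :=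
      exists_ne_of_sum_eq_zero v (fun q p : G => p * q)
      ψ ψ ψ (fun q p => by rw [map_mul, mul_comm]) (psi_ne_zero ψ)
      β.coeff.support α.coeff.support
      β.coeff α.coeff hzero s1 hs1 (Finsupp.mem_support_iff.mp hs1) hs1max
      t ht.1 (Finsupp.mem_support_iff.mp ht.1) ht.2
    have hm' : t' * s' = t * s1 := hm
    have hs'S : s' ∈ S := by
      rw [hSdef, Finset.mem_filter]
      refine ⟨hs', fun g' hg' => ?_⟩
      rw [hWs]; exact hs1max g' hg'
    have hne1 : s' ≠ s1 := by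
      intro heq
      rcases hne with h1 | h1
      · exact h1 heq
      · apply h1
        rw [heq] at hm'
        exact mul_right_cancel hm'
    refine ⟨s', hs'S, hne1, ?_⟩
    have ht'eq : t * s1 * s'⁻¹ = t' := by
      rw [← hm']; simp
    rw [ht'eq, hTdef, Finset.mem_filter]
    refine ⟨ht', fun g' hg' => ?_⟩
    rw [hWt]; exact ht.2 g' hg'
  have ht0T : t0 ∈ T := by
    rw [hTdef, Finset.mem_filter]; exact ⟨ht0, ht0max⟩
  have hs1S : s1 ∈ S := by
    rw [hSdef, Finset.mem_filter]; exact ⟨hs1, hs1max⟩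
  obtain ⟨s2, hs2S, hs2ne, -⟩ := key t0 ht0T
  have hcl : ∀ t ∈ T, t * (s1 * s2⁻¹) ∈ T := by
    intro t ht
    obtain ⟨s', hs'S, hs'ne, hmem⟩ := key t ht
    have : s' = s2 := by
      by_contra hne
      have : 2 < S.card := Finset.two_lt_card.mpr ⟨s1, hs1S, s2, hs2S, s', hs'S,
        fun e => hs2ne e.symm, fun e => hs'ne e.symm, fun e => hne e.symm⟩
      omega
    rw [this, mul_assoc] at hmem
    exact hmem
  have hone := eq_one_of_mul_right_closed hG T ⟨t0, ht0T⟩ (s1 * s2⁻¹) hcl
  apply hs2ne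
  have : s1 = s2 := by
    have := congrArg (fun x => x * s2) hone
    simpa using this
  exact this.symm

open Classical in
theorem exists_three_of_two_lt_card (γ : MonoidAlgebra K G) (v : Valuation K Γ₀) (ψ : G →* Γ₀)
    (h : 2 < (γ.coeff.support.filter (fun g => ∀ g' ∈ γ.coeff.support,
      v (γ.coeff g') * ψ g' ≤ v (γ.coeff g) * ψ g)).card) :
    ∃ g₁ g₂ g₃ : G, g₁ ≠ g₂ ∧ g₁ ≠ g₃ ∧ g₂ ≠ g₃ ∧
      ∀ g ∈ ({g₁, g₂, g₃} : Set G), γ.coeff g ≠ 0 ∧
        ∀ g' : G, v (γ.coeff g') * ψ g' ≤ v (γ.coeff g) * ψ g := by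
  obtain ⟨a, ha, b, hb, c, hc, hab, hac, hbc⟩ := Finset.two_lt_card.mp h
  refine ⟨a, b, c, hab, hac, hbc, ?_⟩
  have aux : ∀ g ∈ γ.coeff.support.filter (fun g => ∀ g' ∈ γ.coeff.support,
      v (γ.coeff g') * ψ g' ≤ v (γ.coeff g) * ψ g),
      γ.coeff g ≠ 0 ∧ ∀ g' : G, v (γ.coeff g') * ψ g' ≤ v (γ.coeff g) * ψ g := by
    intro g hg
    rw [Finset.mem_filter] at hg
    refine ⟨Finsupp.mem_support_iff.mp hg.1, fun g' => ?_⟩
    by_cases hg' : g' ∈ γ.coeff.support
    · exact hg.2 g' hg'
    · rw [Finsupp.notMem_support_iff] at hg'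
      rw [hg', map_zero, zero_mul]
      exact zero_le
  intro g hg
  simp only [Set.mem_insert_iff, Set.mem_singleton_iff] at hg
  rcases hg with rfl | rfl | rfl
  · exact aux _ ha
  · exact aux _ hb
  · exact aux _ hc

end Val

section Abv

open Classical in
theorem abv_lt_sum_left (hG : ∀ g : G, ∀ n : ℕ, 0 < n → g ^ n = 1 → g = 1)
    (abv : AbsoluteValue K ℝ) (α β : MonoidAlgebra K G)
    (hα : α ≠ 0) (hβ : β ≠ 0) (h : α * β = 0) (g₀ : G) :
    abv (α.coeff g₀) < ∑ g ∈ α.coeff.support.erase g₀, abv (α.coeff g) := by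
  by_contra hle
  push Not at hle
  have hαs := support_nonempty_of_ne_zero α hα
  have hβs := support_nonempty_of_ne_zero β hβ
  have hg₀ : g₀ ∈ α.coeff.support := by
    by_contra hg₀
    obtain ⟨g, hg⟩ := hαs
    have hne : g ≠ g₀ := fun e => hg₀ (e ▸ hg)
    have hg' : g ∈ α.coeff.support.erase g₀ := Finset.mem_erase.mpr ⟨hne, hg⟩
    have h1 : abv (α.coeff g) ≤ ∑ g ∈ α.coeff.support.erase g₀, abv (α.coeff g) :=
      Finset.single_le_sum (f := fun g => abv (α.coeff g)) (fun i _ => abv.nonneg _) hg'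
    have h2 : 0 < abv (α.coeff g) := abv.pos (Finsupp.mem_support_iff.mp hg)
    rw [Finsupp.notMem_support_iff] at hg₀
    rw [hg₀, abv.map_zero] at hle
    linarith
  obtain ⟨q0, hq0, hq0max⟩ := Finset.exists_max_image β.coeff.support
    (fun q => abv (β.coeff q)) hβs
  set M := abv (β.coeff q0) with hMdef
  have hM : 0 < M := abv.pos (Finsupp.mem_support_iff.mp hq0)
  set S := β.coeff.support.filter (fun q => abv (β.coeff q) = M) with hSdef
  have hzero : ∀ c, ∑ p ∈ α.coeff.support, ∑ q ∈ β.coeff.support,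
      (if p * q = c then α.coeff p * β.coeff q else 0) = 0 := by
    intro c
    rw [← coeff_mul_sum, h]; simp
  have key : ∀ q ∈ S, (α.coeff.support.erase g₀).Nonempty ∧
      ∀ p ∈ α.coeff.support.erase g₀, p⁻¹ * g₀ * q ∈ S := by
    intro q hq
    rw [hSdef, Finset.mem_filter] at hq
    obtain ⟨hne, hall⟩ := dominance_core abv (fun p q : G => p * q)
      (fun p => mul_right_injective p) α.coeff.support β.coeff.support α.coeff β.coeff
      (fun p hp => Finsupp.mem_support_iff.mp hp) hzero g₀ hg₀ hle M hM hq0max q hq.1 hq.2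
    refine ⟨hne, fun p hp => ?_⟩
    obtain ⟨q', hq', hq'M, hm⟩ := hall p hp
    have hm' : p * q' = g₀ * q := hm
    have : p⁻¹ * g₀ * q = q' := by
      rw [mul_assoc, ← hm']; simp
    rw [this, hSdef, Finset.mem_filter]
    exact ⟨hq', hq'M⟩
  have hq0S : q0 ∈ S := by
    rw [hSdef, Finset.mem_filter]; exact ⟨hq0, rfl⟩
  obtain ⟨⟨p1, hp1⟩, -⟩ := key q0 hq0S
  have hone := eq_one_of_mul_left_closed hG S ⟨q0, hq0S⟩ (p1⁻¹ * g₀)
    (fun q hq => (key q hq).2 p1 hp1)
  have : p1 = g₀ := by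
    have := congrArg (fun x => p1 * x) hone
    simpa using this.symm
  exact (Finset.mem_erase.mp hp1).1 this

open Classical in
theorem abv_lt_sum_right (hG : ∀ g : G, ∀ n : ℕ, 0 < n → g ^ n = 1 → g = 1)
    (abv : AbsoluteValue K ℝ) (α β : MonoidAlgebra K G)
    (hα : α ≠ 0) (hβ : β ≠ 0) (h : α * β = 0) (g₀ : G) :
    abv (β.coeff g₀) < ∑ g ∈ β.coeff.support.erase g₀, abv (β.coeff g) := by
  by_contra hle
  push Not at hle
  have hαs := support_nonempty_of_ne_zero α hα
  have hβs := support_nonempty_of_ne_zero β hβ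
  have hg₀ : g₀ ∈ β.coeff.support := by
    by_contra hg₀
    obtain ⟨g, hg⟩ := hβs
    have hne : g ≠ g₀ := fun e => hg₀ (e ▸ hg)
    have hg' : g ∈ β.coeff.support.erase g₀ := Finset.mem_erase.mpr ⟨hne, hg⟩
    have h1 : abv (β.coeff g) ≤ ∑ g ∈ β.coeff.support.erase g₀, abv (β.coeff g) :=
      Finset.single_le_sum (f := fun g => abv (β.coeff g)) (fun i _ => abv.nonneg _) hg'
    have h2 : 0 < abv (β.coeff g) := abv.pos (Finsupp.mem_support_iff.mp hg)
    rw [Finsupp.notMem_support_iff] at hg₀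
    rw [hg₀, abv.map_zero] at hle
    linarith
  obtain ⟨q0, hq0, hq0max⟩ := Finset.exists_max_image α.coeff.support
    (fun q => abv (α.coeff q)) hαs
  set M := abv (α.coeff q0) with hMdef
  have hM : 0 < M := abv.pos (Finsupp.mem_support_iff.mp hq0)
  set S := α.coeff.support.filter (fun q => abv (α.coeff q) = M) with hSdef
  have hzero : ∀ c, ∑ q ∈ β.coeff.support, ∑ p ∈ α.coeff.support,
      (if p * q = c then β.coeff q * α.coeff p else 0) = 0 := by
    intro c
    rw [← coeff_mul_sum', h]; simp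
  have key : ∀ q ∈ S, (β.coeff.support.erase g₀).Nonempty ∧
      ∀ p ∈ β.coeff.support.erase g₀, q * (g₀ * p⁻¹) ∈ S := by
    intro q hq
    rw [hSdef, Finset.mem_filter] at hq
    obtain ⟨hne, hall⟩ := dominance_core abv (fun q p : G => p * q)
      (fun q => mul_left_injective q) β.coeff.support α.coeff.support β.coeff α.coeff
      (fun p hp => Finsupp.mem_support_iff.mp hp) hzero g₀ hg₀ hle M hM hq0max q hq.1 hq.2
    refine ⟨hne, fun p hp => ?_⟩
    obtain ⟨q', hq', hq'M, hm⟩ := hall p hp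
    have hm' : q' * p = q * g₀ := hm
    have : q * (g₀ * p⁻¹) = q' := by
      rw [← mul_assoc, ← hm']; simp
    rw [this, hSdef, Finset.mem_filter]
    exact ⟨hq', hq'M⟩
  have hq0S : q0 ∈ S := by
    rw [hSdef, Finset.mem_filter]; exact ⟨hq0, rfl⟩
  obtain ⟨⟨p1, hp1⟩, -⟩ := key q0 hq0S
  have hone := eq_one_of_mul_right_closed hG S ⟨q0, hq0S⟩ (g₀ * p1⁻¹)
    (fun q hq => (key q hq).2 p1 hp1)
  have : p1 = g₀ := by
    have := congrArg (fun x => x * p1) hone
    simpa using this.symm
  exact (Finset.mem_erase.mp hp1).1 this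

end Abv

end Group

end Vale.Agent.Lib.P201
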