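import Mathlib
import Vale.Agent.Lib.P201.Core

namespace Vale.Agent.Lib.P201

open Finset

variable {G : Type*} [Group G] {K : Type*} [Field K]

/-- If a three-term element is a zero divisor, all its coefficients have the same valuation,
for every valuation subring of the coefficient field. -/
theorem valuation_le_of_trinomial (hG : ∀ g : G, ∀ n : ℕ, 0 < n → g ^ n = 1 → g = 1)
    (V : ValuationSubring K) (α β : MonoidAlgebra K G) (hcard : α.coeff.support.card = 3)
    (hβ : β ≠ 0) (h : α * β = 0 ∨ β * α = 0) (g g' : G)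
    (hg : g ∈ α.coeff.support) (hg' : g' ∈ α.coeff.support) :
    V.valuation (α.coeff g) ≤ V.valuation (α.coeff g') := by
  classical
  have hα : α ≠ 0 := by
    rintro rfl
    simp at hcard
  have h2 : 2 < (α.coeff.support.filter (fun g => ∀ g' ∈ α.coeff.support,
      V.valuation (α.coeff g') * (1 : G →* V.ValueGroup) g' ≤
        V.valuation (α.coeff g) * (1 : G →* V.ValueGroup) g)).card := by
    rcases h with h | h
    · exact two_lt_card_max_left hG V.valuation 1 α β hα hβ h
    · exact two_lt_card_max_right hG V.valuation 1 β α hβ hα h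
  have hsub : α.coeff.support.filter (fun g => ∀ g' ∈ α.coeff.support,
      V.valuation (α.coeff g') * (1 : G →* V.ValueGroup) g' ≤
        V.valuation (α.coeff g) * (1 : G →* V.ValueGroup) g) = α.coeff.support := by
    apply Finset.eq_of_subset_of_card_le (Finset.filter_subset _ _)
    omega
  have hmem := hg'
  rw [← hsub, Finset.mem_filter] at hmem
  simpa using hmem.2 g hg

/-- Ratios of coefficients of a three-term zero divisor are integral over the integers. -/
theorem isIntegral_of_trinomial (hG : ∀ g : G, ∀ n : ℕ, 0 < n → g ^ n = 1 → g = 1)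
    (α β : MonoidAlgebra K G) (hcard : α.coeff.support.card = 3)
    (hβ : β ≠ 0) (h : α * β = 0 ∨ β * α = 0) (g g' : G)
    (hg : g ∈ α.coeff.support) (hg' : g' ∈ α.coeff.support) :
    IsIntegral ℤ (α.coeff g / α.coeff g') := by
  by_contra hint
  have hx : α.coeff g / α.coeff g' ∉ (integralClosure ℤ K).toSubring := hint
  obtain ⟨V, -, hV⟩ := Subring.exists_le_valuationSubring_of_isIntegrallyClosedIn hx
  apply hV
  rw [← ValuationSubring.valuation_le_one_iff, map_div₀]
  have hne : V.valuation (α.coeff g') ≠ 0 :=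
    (Valuation.ne_zero_iff _).mpr (Finsupp.mem_support_iff.mp hg')
  rw [div_le_one₀ (zero_lt_iff.mpr hne)]
  exact valuation_le_of_trinomial hG V α β hcard hβ h g g' hg hg'

/-- In positive characteristic, a nonzero element integral over the integers is a root of unity. -/
theorem exists_pow_eq_one_of_isIntegral (p : ℕ) (hp : p ≠ 0) [CharP K p] (x : K) (hx0 : x ≠ 0)
    (hx : IsIntegral ℤ x) : ∃ n : ℕ, 0 < n ∧ x ^ n = 1 := by
  have hprime : Nat.Prime p := (CharP.char_is_prime_or_zero K p).resolve_right hp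
  have : Fact p.Prime := ⟨hprime⟩
  let _ : Algebra (ZMod p) K := ZMod.algebra K p
  have hx' : IsIntegral (ZMod p) x := hx.tower_top
  have hfin : Module.Finite (ZMod p) (Algebra.adjoin (ZMod p) {x}) :=
    Module.Finite.iff_fg.mpr hx'.fg_adjoin_singleton
  have : Finite (Algebra.adjoin (ZMod p) {x}) := Module.finite_of_finite (ZMod p)
  have hmem : ∀ n : ℕ, x ^ n ∈ Algebra.adjoin (ZMod p) {x} := fun n =>
    pow_mem (Algebra.subset_adjoin (Set.mem_singleton x)) n
  have hinj : ¬ Function.Injective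
      (fun n : ℕ => (⟨x ^ n, hmem n⟩ : Algebra.adjoin (ZMod p) {x})) :=
    not_injective_infinite_finite _
  rw [Function.Injective] at hinj
  push Not at hinj
  obtain ⟨n, k, heq, hne⟩ := hinj
  have heq' : x ^ n = x ^ k := by simpa using congrArg Subtype.val heq
  rcases lt_or_gt_of_ne hne with hlt | hlt
  · refine ⟨k - n, by omega, ?_⟩
    have hk : x ^ k = x ^ (k - n) * x ^ n := by
      rw [← pow_add]; congr 1; omega
    rw [hk] at heq'
    have hxn : x ^ n ≠ 0 := pow_ne_zero n hx0
    exact mul_right_cancel₀ hxn (by rw [one_mul]; exact heq'.symm)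
  · refine ⟨n - k, by omega, ?_⟩
    have hk : x ^ n = x ^ (n - k) * x ^ k := by
      rw [← pow_add]; congr 1; omega
    rw [hk] at heq'
    have hxn : x ^ k ≠ 0 := pow_ne_zero k hx0
    exact mul_right_cancel₀ hxn (by rw [one_mul]; exact heq')

omit [Group G] in
/-- Each coefficient of a zero divisor is smaller than half of the sum of all of them, for every
real absolute value on the coefficient field. -/
theorem two_mul_abv_lt_sum (abv : AbsoluteValue K ℝ) (γ : MonoidAlgebra K G) (g : G)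
    [DecidableEq G]
    (h : abv (γ.coeff g) < ∑ g' ∈ γ.coeff.support.erase g, abv (γ.coeff g')) :
    2 * abv (γ.coeff g) < ∑ g' ∈ γ.coeff.support, abv (γ.coeff g') := by
  by_cases hg : g ∈ γ.coeff.support
  · rw [← Finset.add_sum_erase _ _ hg]
    linarith
  · rw [Finset.erase_eq_of_notMem hg] at h
    rw [Finsupp.notMem_support_iff] at hg
    rw [hg, abv.map_zero] at h ⊢
    linarith

theorem coefficient_criteria (hG : ∀ g : G, ∀ n : ℕ, 0 < n → g ^ n = 1 → g = 1)
    (α β : MonoidAlgebra K G) (hα : α ≠ 0) (hβ : β ≠ 0) (h : α * β = 0)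
    {Γ₀ : Type*} [LinearOrderedCommGroupWithZero Γ₀] (v : Valuation K Γ₀) (ψ : G →* Γ₀)
    (abv : AbsoluteValue K ℝ) :
    ∀ γ ∈ ({α, β} : Set (MonoidAlgebra K G)),
      (∃ g₁ g₂ g₃ : G, g₁ ≠ g₂ ∧ g₁ ≠ g₃ ∧ g₂ ≠ g₃ ∧
        ∀ g ∈ ({g₁, g₂, g₃} : Set G), γ.coeff g ≠ 0 ∧
          ∀ g' : G, v (γ.coeff g') * ψ g' ≤ v (γ.coeff g) * ψ g) ∧
      (∀ g : G, 2 * abv (γ.coeff g) < ∑ g' ∈ γ.coeff.support, abv (γ.coeff g')) := by
  intro γ hγ
  simp only [Set.mem_insert_iff, Set.mem_singleton_iff] at hγ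
  rcases hγ with hγ | hγ
  · rw [hγ]
    refine ⟨exists_three_of_two_lt_card α v ψ (two_lt_card_max_left hG v ψ α β hα hβ h),
      fun g => ?_⟩
    classical
    exact two_mul_abv_lt_sum abv α g (abv_lt_sum_left hG abv α β hα hβ h g)
  · rw [hγ]
    refine ⟨exists_three_of_two_lt_card β v ψ (two_lt_card_max_right hG v ψ α β hα hβ h),
      fun g => ?_⟩
    classical
    exact two_mul_abv_lt_sum abv β g (abv_lt_sum_right hG abv α β hα hβ h g)

theorem trinomial (hG : ∀ g : G, ∀ n : ℕ, 0 < n → g ^ n = 1 → g = 1)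
    (α β : MonoidAlgebra K G)
    (hα : α.coeff.support.card = 3) (hβ : β ≠ 0) (h : α * β = 0 ∨ β * α = 0) :
    (∀ g ∈ α.coeff.support, ∀ g' ∈ α.coeff.support, IsIntegral ℤ (α.coeff g / α.coeff g')) ∧
    (∀ p : ℕ, p ≠ 0 → CharP K p → ∀ g ∈ α.coeff.support, ∀ g' ∈ α.coeff.support,
        ∃ n : ℕ, 0 < n ∧ (α.coeff g / α.coeff g') ^ n = 1) ∧
    (∀ abv : AbsoluteValue K ℝ, ∀ g : G,
        2 * abv (α.coeff g) < ∑ g' ∈ α.coeff.support, abv (α.coeff g')) := by
  classical
  have hα0 : α ≠ 0 := by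
    rintro rfl
    simp at hα
  refine ⟨fun g hg g' hg' => isIntegral_of_trinomial hG α β hα hβ h g g' hg hg', ?_, ?_⟩
  · intro p hp hchar g hg g' hg'
    have hx0 : α.coeff g / α.coeff g' ≠ 0 :=
      div_ne_zero (Finsupp.mem_support_iff.mp hg) (Finsupp.mem_support_iff.mp hg')
    exact exists_pow_eq_one_of_isIntegral p hp _ hx0
      (isIntegral_of_trinomial hG α β hα hβ h g g' hg hg')
  · intro abv g
    apply two_mul_abv_lt_sum
    rcases h with h | h
    · exact abv_lt_sum_left hG abv α β hα0 hβ h g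
    · exact abv_lt_sum_right hG abv β α hβ hα0 h g

theorem trinomial_rat (hG : ∀ g : G, ∀ n : ℕ, 0 < n → g ^ n = 1 → g = 1)
    (α : MonoidAlgebra ℚ G) (hα : α.coeff.support.card = 3)
    (hne : ∃ g ∈ α.coeff.support, ∃ g' ∈ α.coeff.support, |α.coeff g| ≠ |α.coeff g'|)
    (β : MonoidAlgebra ℚ G) (hβ : β ≠ 0) : α * β ≠ 0 ∧ β * α ≠ 0 := by
  have key : ¬ (α * β = 0 ∨ β * α = 0) := by
    intro h
    obtain ⟨g, hg, g', hg', hneq⟩ := hne
    apply hneq
    have h1 := isIntegral_of_trinomial hG α β hα hβ h g g' hg hg'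
    have h2 := isIntegral_of_trinomial hG α β hα hβ h g' g hg' hg
    obtain ⟨n, hn⟩ := IsIntegrallyClosed.isIntegral_iff.mp h1
    obtain ⟨k, hk⟩ := IsIntegrallyClosed.isIntegral_iff.mp h2
    have ha : α.coeff g ≠ 0 := Finsupp.mem_support_iff.mp hg
    have hb : α.coeff g' ≠ 0 := Finsupp.mem_support_iff.mp hg'
    have hnk : (n : ℚ) * (k : ℚ) = 1 := by
      have e1 : (n : ℚ) = α.coeff g / α.coeff g' := hn
      have e2 : (k : ℚ) = α.coeff g' / α.coeff g := hk
      rw [e1, e2]; field_simp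
    have hnk' : n * k = 1 := by exact_mod_cast hnk
    have hn1 : |n| = 1 := by
      rcases Int.eq_one_or_neg_one_of_mul_eq_one hnk' with h | h <;> simp [h]
    have e1 : (n : ℚ) = α.coeff g / α.coeff g' := hn
    have : |α.coeff g / α.coeff g'| = 1 := by
      rw [← e1]; exact_mod_cast hn1
    rw [abs_div, div_eq_one_iff_eq (abs_ne_zero.mpr hb)] at this
    exact this
  push Not at key
  exact key

end Vale.Agent.Lib.P201
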